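import Crest.Agent.X37.IO.Tree

/-!
# Row 37: the existence statement (S0050) from the core statement
-/

set_option autoImplicit false

namespace Crest.Agent.X37.IO

open Crest.Agent.Lib.PT Crest.CombinatoricsR.Multigraph

section
variable {V E : Type} [DecidableEq V] {n : ℕ} (φ : V ≃ Fin n) (src tgt : E → V)

/-- an edge as a pair of numbers -/
def numE (e : E) : ℕ × ℕ := ((φ (src e) : ℕ), (φ (tgt e) : ℕ))

/-- a vertex set as a set of numbers -/
def numS (S : Finset V) : Finset ℕ := vals (S.map φ.toEmbedding)

omit [DecidableEq V] in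
theorem mem_numS (S : Finset V) (v : V) : (φ v : ℕ) ∈ numS φ S ↔ v ∈ S := by
  rw [numS, val_mem_vals]
  exact Finset.mem_map' φ.toEmbedding

theorem cutL_numE (F : Finset E) (S : Finset V) :
    cutL (F.toList.map (numE φ src tgt)) (numS φ S) = (cutEdges src tgt F S).card := by
  classical
  rw [cutL, List.countP_map, List.countP_eq_length_filter,
    ← List.toFinset_card_of_nodup (F.nodup_toList.filter _), cutEdges]
  congr 1
  ext e
  simp [crossB_iff, numE, mem_numS]

omit [DecidableEq V] in
theorem forall_proper_numS [Fintype V] {p : Finset ℕ → Prop} :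
    (∀ S, Proper n S → p S) ↔
      ∀ S : Finset V, S.Nonempty → S ≠ Finset.univ → p (numS φ S) := by
  rw [forall_proper]
  constructor
  · intro h S h1 h2
    refine h _ (Finset.map_nonempty.2 h1) fun e => h2 ?_
    rw [← Finset.map_univ_equiv φ] at e
    exact Finset.map_injective _ e
  · intro h S h1 h2
    have e : (S.map φ.symm.toEmbedding).map φ.toEmbedding = S := by ext x; simp
    have := h (S.map φ.symm.toEmbedding) (Finset.map_nonempty.2 h1) fun e' => h2 (by
      rw [← e, e', Finset.map_univ_equiv])
    rwa [numS, e] at this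

end

/-- **S0050 from the core statement.** -/
theorem s0050_of_core (h : CoreStatement) :
    ∃ C : ℝ, 0 < C ∧ ∀ k : ℕ, 1 ≤ k →
      ∀ (V E : Type) [Fintype V] [DecidableEq V] [Fintype E] (src tgt : E → V),
        (∀ e, src e ≠ tgt e) → 2 ≤ Fintype.card V →
        (∀ S : Finset V, S.Nonempty → S ≠ Finset.univ →
          k ≤ (cutEdges src tgt Finset.univ S).card) →
        ∃ T : Finset E, T.card + 1 = Fintype.card V ∧ (adjGraph src tgt T).Connected ∧
          ∀ S : Finset V, S.Nonempty → S ≠ Finset.univ →
            ((cutEdges src tgt T S).card : ℝ) ≤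
              C / k * (cutEdges src tgt Finset.univ S).card := by
  classical
  obtain ⟨C, core, hC, -, h⟩ := h
  refine ⟨C, hC, fun k hk V E _ _ _ src tgt hst hV hcut => ?_⟩
  set n := Fintype.card V with hn
  let φ : V ≃ Fin n := Fintype.equivFin V
  set es := (Finset.univ : Finset E).toList.map (numE φ src tgt) with hes
  have hL : Loopless n es := by
    intro p hp
    obtain ⟨e, -, rfl⟩ := List.mem_map.1 hp
    exact ⟨(φ _).2, (φ _).2, fun e' => hst e (φ.injective (Fin.ext e'))⟩
  obtain ⟨hsub, hH⟩ := h n k es hk hL ((forall_proper_numS φ).2 fun S h1 h2 => by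
    rw [hes, cutL_numE]; exact hcut S h1 h2)
  set H := core (⟨n⟩, k, es)
  obtain ⟨t1, t2, t3, t4⟩ := treeL_spec (by omega) (hL.sublist hsub) fun S hS => (hH S hS).1
  obtain ⟨T, -, hinj, himg⟩ := Finset.exists_subset_injOn_image_eq_of_surjOn
    (f := numE φ src tgt) Set.univ (treeL n H).toFinset (fun p hp => by
      obtain ⟨e, -, rfl⟩ := List.mem_map.1 (hsub _ (t3 _ (List.mem_toFinset.1 hp)))
      exact ⟨e, trivial, rfl⟩)
  have hperm : (T.toList.map (numE φ src tgt)).Perm (treeL n H) := by
    refine (List.perm_ext_iff_of_nodup (List.Nodup.map_on (fun x hx y hy e =>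
      hinj (Finset.mem_toList.1 hx) (Finset.mem_toList.1 hy) e) T.nodup_toList) t1).2 fun p => ?_
    rw [← List.mem_toFinset (l := treeL n H), ← himg]
    simp
  have hcT : ∀ S, (cutEdges src tgt T S).card = cutL (treeL n H) (numS φ S) := fun S => by
    rw [← cutL_numE φ, cutL_perm hperm]
  have : Nonempty V := Fintype.card_pos_iff.1 (by omega)
  refine ⟨T, ?_, connected_of_cuts src tgt T fun S h1 h2 => ?_, fun S h1 h2 => ?_⟩
  · have := hperm.length_eq
    rw [List.length_map, Finset.length_toList] at this
    omega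
  · rw [hcT]
    exact (forall_proper_numS φ).1 t4 S h1 h2
  · rw [hcT, ← cutL_numE φ]
    refine le_trans ?_ ((forall_proper_numS φ).1 hH S h1 h2).2
    exact_mod_cast cutL_le_of_nodup t1 t3 _

end Crest.Agent.X37.IO
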