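import Crest.Agent.X37.IO.Ex

/-!
# Row 37: the algorithmic statement (S0051) from the core statement

Multiplicities in binary are divided by `q = k / (2 n²) + 1` and capped at `n² + 1`.
-/

set_option autoImplicit false

namespace Crest.Agent.X37.IO

open Crest.Agent.Lib.PT Crest.CombinatoricsR.Multigraph Crest.Enc

/-- the reduced multiplicity of the pair `(i, j)` -/
def capM (n q : ℕ) (tab : List ℕ) (i j : ℕ) : ℕ :=
  min (if i < j then tab.getD (i * n + j) 0 / q else 0) (n * n + 1)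

/-- the reduced edge list -/
def edgesL (n q : ℕ) (tab : List ℕ) : List (ℕ × ℕ) :=
  (List.range n).flatMap fun i => (List.range n).flatMap fun j =>
    List.replicate (capM n q tab i j) (i, j)

/-- the table of bits of a list of pairs -/
def outBits (n : ℕ) (T : List (ℕ × ℕ)) : List Bool :=
  (List.range (n * n)).map fun t => decide ((t / n, t % n) ∈ T)

/-- the algorithm on decoded inputs -/
def thinD (core : Un × ℕ × List (ℕ × ℕ) → List (ℕ × ℕ)) (n k : ℕ) (tab : List ℕ) : List Bool :=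
  outBits n (treeL n (core (⟨n⟩, k / (4 * (k / (2 * (n * n)) + 1)) + 1,
    edgesL n (k / (2 * (n * n)) + 1) tab)))

/-- the table read from the input -/
def tabOf (x : List Bool) : List ℕ := (parseList parseNat (parseNat (parseNat x).2).2).1

/-- the algorithm on bit strings -/
def thinF (core : Un × ℕ × List (ℕ × ℕ) → List (ℕ × ℕ)) (x : List Bool) : List Bool :=
  thinD core (min (parseNat x).1 (tabOf x).length) (parseNat (parseNat x).2).1 (tabOf x)

/-! ### Running time -/

section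
variable {α : Type} [Enc α]

@[fun_prop] theorem capM_pt {n q i j : α → ℕ} {tab : α → List ℕ} (hn : PT n) (hq : PT q)
    (ht : PT tab) (hi : PT i) (hj : PT j) :
    PT fun a => capM (n a) (q a) (tab a) (i a) (j a) := by
  unfold capM; fun_prop

@[fun_prop] theorem capM_pb {n : α → ℕ} (hb : PB n) (q i j : α → ℕ) (tab : α → List ℕ) :
    PB fun a => capM (n a) (q a) (tab a) (i a) (j a) :=
  PB.min_right _ (by fun_prop)

attribute [local irreducible] capM in
@[fun_prop] theorem edgesL_pt {n q : α → ℕ} {tab : α → List ℕ} (hn : PT n) (hb : PB n) (hq : PT q)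
    (ht : PT tab) : PT fun a => edgesL (n a) (q a) (tab a) := by
  unfold edgesL; fun_prop

@[fun_prop] theorem outBits_pt {n : α → ℕ} {T : α → List (ℕ × ℕ)} (hn : PT n) (hb : PB n)
    (hT : PT T) : PT fun a => outBits (n a) (T a) := by
  unfold outBits; fun_prop

theorem thinD_pt {core : Un × ℕ × List (ℕ × ℕ) → List (ℕ × ℕ)} (hc : PT core) {n k : α → ℕ}
    {tab : α → List ℕ} (hn : PT n) (hb : PB n) (hk : PT k) (ht : PT tab) :
    PT fun a => thinD core (n a) (k a) (tab a) := by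
  unfold thinD
  exact outBits_pt hn hb (treeL_pt hn hb (hc.comp ((hn.un_mk hb).pair
    (PT.pair (by fun_prop) (edgesL_pt hn hb (by fun_prop) ht)))))

end

theorem tabOf_pt : PT tabOf :=
  (PT.parseList (p := fun _ => parseNat) (by fun_prop) (fun _ => shrinks_parseNat)
    (by fun_prop)).fst

theorem thinF_pt {core : Un × ℕ × List (ℕ × ℕ) → List (ℕ × ℕ)} (hc : PT core) :
    PT (thinF core) := by
  have := tabOf_pt
  exact thinD_pt hc (by fun_prop) (PB.min_right _ (PB.length tabOf_pt)) (by fun_prop) tabOf_pt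

/-! ### The table -/

/-- the table of the input -/
def tabM {n : ℕ} (mult : Fin n → Fin n → ℕ) : List ℕ :=
  ((List.finRange n).map fun i => (List.finRange n).map fun j => mult i j).flatten

theorem tabM_eq {n : ℕ} (mult : Fin n → Fin n → ℕ) :
    tabM mult = List.ofFn fun t : Fin (n * n) => mult t.divNat t.modNat := by
  rw [List.ofFn_mul, tabM, ← List.ofFn_eq_map]
  congr 2
  funext i
  rw [← List.ofFn_eq_map]
  congr 1
  funext j
  have hn : 0 < n := i.pos
  congr 1 <;> apply Fin.ext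
  · simp [Nat.add_comm _ (j : ℕ), Nat.add_mul_div_right _ _ hn, Nat.div_eq_of_lt j.2]
  · simp [Nat.mod_eq_of_lt j.2]

theorem length_tabM {n : ℕ} (mult : Fin n → Fin n → ℕ) : (tabM mult).length = n * n := by
  rw [tabM_eq, List.length_ofFn]

theorem idx_lt {n : ℕ} (i j : Fin n) : (i : ℕ) * n + j < n * n := by
  have := Nat.mul_le_mul_right n (Nat.succ_le_of_lt i.2)
  have := j.2
  rw [Nat.succ_mul] at *
  omega

theorem idx_div {n : ℕ} (i j : Fin n) : ((i : ℕ) * n + j) / n = i := by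
  rw [Nat.add_comm, Nat.add_mul_div_right _ _ i.pos, Nat.div_eq_of_lt j.2, Nat.zero_add]

theorem idx_mod {n : ℕ} (i j : Fin n) : ((i : ℕ) * n + j) % n = j := by
  rw [Nat.add_comm, Nat.add_mul_mod_self_right, Nat.mod_eq_of_lt j.2]

theorem getD_tabM {n : ℕ} (mult : Fin n → Fin n → ℕ) (i j : Fin n) :
    (tabM mult).getD (i * n + j) 0 = mult i j := by
  rw [tabM_eq, List.getD_eq_getElem _ _ (by simpa using idx_lt i j), List.getElem_ofFn]
  congr 1 <;> apply Fin.ext
  · exact idx_div i j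
  · exact idx_mod i j

theorem thinF_code (core : Un × ℕ × List (ℕ × ℕ) → List (ℕ × ℕ)) {n : ℕ} (k : ℕ)
    (mult : Fin n → Fin n → ℕ) :
    thinF core (multigraphCode n k mult) = thinD core n k (tabM mult) := by
  have e : multigraphCode n k mult = natCode n ++ (natCode k ++ listCode (tabM mult)) := by
    rw [multigraphCode, List.append_assoc]; rfl
  have h : tabOf (multigraphCode n k mult) = tabM mult := by
    rw [tabOf, e]; simp
  rw [thinF, h, e, parseNat_natCode, parseNat_natCode, length_tabM,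
    min_eq_left (Nat.le_mul_self n)]

theorem mem_decode {n : ℕ} (T : List (ℕ × ℕ)) (p : Fin n × Fin n) :
    p ∈ decodePairs n (outBits n T) ↔ ((p.1 : ℕ), (p.2 : ℕ)) ∈ T := by
  rw [decodePairs, Finset.mem_filter, outBits,
    List.getD_eq_getElem _ _ (by simpa using idx_lt p.1 p.2)]
  simp [idx_div, Nat.mod_eq_of_lt p.2.2]

/-! ### The reduced edge list -/

theorem mem_edgesL {n q : ℕ} {tab : List ℕ} {e : ℕ × ℕ} (h : e ∈ edgesL n q tab) :
    e.1 < e.2 ∧ e.2 < n ∧ 1 ≤ tab.getD (e.1 * n + e.2) 0 := by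
  simp only [edgesL, List.mem_flatMap, List.mem_range, List.mem_replicate] at h
  obtain ⟨i, -, j, hj, h0, rfl⟩ := h
  unfold capM at h0
  split_ifs at h0 with hij
  · refine ⟨hij, hj, Nat.pos_of_ne_zero fun e => h0 ?_⟩
    simp only at e
    rw [e]; simp
  · simp at h0

theorem sum_cross {n : ℕ} (c : Fin n → Fin n → ℕ) (hc : ∀ i j, c i j = c j i)
    (S : Finset (Fin n)) :
    (∑ i : Fin n, ∑ j : Fin n,
      if ((i ∈ S ∧ j ∉ S) ∨ (i ∉ S ∧ j ∈ S)) ∧ i < j then c i j else 0) =
      ∑ i ∈ S, ∑ j ∈ Sᶜ, c i j := by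
  have e1 : ∑ i ∈ S, ∑ j ∈ Sᶜ, c i j =
      ∑ i : Fin n, ∑ j : Fin n, if i ∈ S ∧ j ∉ S then c i j else 0 := by
    rw [← Finset.sum_product', ← Finset.sum_product', ← Finset.sum_filter]
    congr 1
    ext p
    simp
  have e2 : (∑ i : Fin n, ∑ j : Fin n, if (i ∈ S ∧ j ∉ S) ∧ j < i then c i j else 0) =
      ∑ i : Fin n, ∑ j : Fin n, if (i ∉ S ∧ j ∈ S) ∧ i < j then c i j else 0 := by
    rw [Finset.sum_comm]
    refine Finset.sum_congr rfl fun i _ => Finset.sum_congr rfl fun j _ => ?_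
    rw [hc j i]
    exact if_congr (by tauto) rfl rfl
  have e3 : (∑ i : Fin n, ∑ j : Fin n, if i ∈ S ∧ j ∉ S then c i j else 0) =
      (∑ i : Fin n, ∑ j : Fin n, if (i ∈ S ∧ j ∉ S) ∧ i < j then c i j else 0) +
      ∑ i : Fin n, ∑ j : Fin n, if (i ∈ S ∧ j ∉ S) ∧ j < i then c i j else 0 := by
    simp only [← Finset.sum_add_distrib]
    refine Finset.sum_congr rfl fun i _ => Finset.sum_congr rfl fun j _ => ?_
    by_cases h : i ∈ S ∧ j ∉ S
    · have hij : i ≠ j := fun e => h.2 (e ▸ h.1)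
      rcases lt_or_gt_of_ne hij with h' | h' <;> simp [h, h', not_lt.2 h'.le]
    · simp only [h, false_and, if_false, add_zero]
  rw [e1, e3, e2]
  simp only [← Finset.sum_add_distrib]
  refine Finset.sum_congr rfl fun i _ => Finset.sum_congr rfl fun j _ => ?_
  by_cases hi : i ∈ S <;> by_cases hj : j ∈ S <;> simp [hi, hj]

theorem cutL_edgesL {n : ℕ} (q : ℕ) (mult : Fin n → Fin n → ℕ) (hs : ∀ i j, mult i j = mult j i)
    (S : Finset (Fin n)) :
    cutL (edgesL n q (tabM mult)) (vals S) =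
      ∑ i ∈ S, ∑ j ∈ Sᶜ, min (mult i j / q) (n * n + 1) := by
  rw [← sum_cross _ (fun i j => by rw [hs i j])]
  simp only [cutL, edgesL, List.countP_flatMap, Function.comp_def, List.countP_replicate]
  have key : ∀ f : ℕ → ℕ, ((List.range n).map f).sum = ∑ i : Fin n, f i := fun f => by
    rw [← Finset.sum_range]; rfl
  simp only [key]
  refine Finset.sum_congr rfl fun i _ => Finset.sum_congr rfl fun j _ => ?_
  simp only [crossB_iff, val_mem_vals, capM, getD_tabM, Fin.lt_def]
  by_cases h : (i : ℕ) < j <;> simp [h]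

theorem loopless_edgesL (n q : ℕ) (tab : List ℕ) : Loopless n (edgesL n q tab) := fun _ he =>
  ⟨(mem_edgesL he).1.trans (mem_edgesL he).2.1, (mem_edgesL he).2.1, (mem_edgesL he).1.ne⟩

theorem red_upper {n : ℕ} (q : ℕ) (mult : Fin n → Fin n → ℕ) (S : Finset (Fin n)) :
    q * ∑ i ∈ S, ∑ j ∈ Sᶜ, min (mult i j / q) (n * n + 1) ≤ ∑ i ∈ S, ∑ j ∈ Sᶜ, mult i j := by
  simp only [Finset.mul_sum]
  exact Finset.sum_le_sum fun i _ => Finset.sum_le_sum fun j _ =>
    (Nat.mul_le_mul_left _ (min_le_left _ _)).trans (Nat.mul_div_le _ _)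

theorem red_lower {n k : ℕ} (hn : 1 ≤ n) (hk : 1 ≤ k) (mult : Fin n → Fin n → ℕ)
    (S : Finset (Fin n)) (h : k ≤ ∑ i ∈ S, ∑ j ∈ Sᶜ, mult i j) :
    k / (4 * (k / (2 * (n * n)) + 1)) + 1 ≤
      ∑ i ∈ S, ∑ j ∈ Sᶜ, min (mult i j / (k / (2 * (n * n)) + 1)) (n * n + 1) := by
  have hnn : 0 < n * n := Nat.mul_pos hn hn
  have h1 : 2 * (n * n) * (k / (2 * (n * n))) ≤ k := Nat.mul_div_le _ _
  have h2 : k < 2 * (n * n) * (k / (2 * (n * n)) + 1) := Nat.lt_mul_div_succ _ (by omega)
  generalize k / (2 * (n * n)) = r at h1 h2 ⊢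
  by_cases hbig : ∃ i ∈ S, ∃ j ∈ Sᶜ, n * n + 1 ≤ mult i j / (r + 1)
  · obtain ⟨i, hi, j, hj, hij⟩ := hbig
    have h3 : k / (4 * (r + 1)) ≤ n * n :=
      Nat.div_le_of_le_mul (by nlinarith)
    calc k / (4 * (r + 1)) + 1 ≤ min (mult i j / (r + 1)) (n * n + 1) := by
          rw [min_eq_right hij]; omega
      _ ≤ ∑ j ∈ Sᶜ, min (mult i j / (r + 1)) (n * n + 1) :=
          Finset.single_le_sum (f := fun j => min (mult i j / (r + 1)) (n * n + 1))
            (fun _ _ => Nat.zero_le _) hj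
      _ ≤ _ := Finset.single_le_sum
            (f := fun i => ∑ j ∈ Sᶜ, min (mult i j / (r + 1)) (n * n + 1))
            (fun _ _ => Nat.zero_le _) hi
  · push Not at hbig
    rw [Finset.sum_congr rfl fun i hi => Finset.sum_congr rfl fun j hj =>
      min_eq_left (hbig i hi j hj).le]
    set A := ∑ i ∈ S, ∑ j ∈ Sᶜ, mult i j / (r + 1) with hA
    have h4 : ∑ i ∈ S, ∑ j ∈ Sᶜ, mult i j ≤ (r + 1) * A + S.card * (Sᶜ.card * r) := by
      rw [hA]
      simp only [Finset.mul_sum]
      rw [← smul_eq_mul (a := S.card), ← smul_eq_mul (a := Sᶜ.card), ← Finset.sum_const,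
        ← Finset.sum_const, ← Finset.sum_add_distrib]
      refine Finset.sum_le_sum fun i _ => ?_
      rw [← Finset.sum_add_distrib]
      refine Finset.sum_le_sum fun j _ => ?_
      have := Nat.div_add_mod (mult i j) (r + 1)
      have := Nat.mod_lt (mult i j) (show 0 < r + 1 by omega)
      omega
    have h5 : S.card ≤ n := by simpa using S.card_le_univ
    have h6 : Sᶜ.card ≤ n := by simpa using Sᶜ.card_le_univ
    have h7 : S.card * (Sᶜ.card * r) ≤ n * (n * r) :=
      Nat.mul_le_mul h5 (Nat.mul_le_mul_right _ h6)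
    have h8 : k ≤ 2 * ((r + 1) * A) := by nlinarith
    exact (Nat.div_lt_iff_lt_mul (by omega)).2 (by nlinarith)

/-- **S0051 from the core statement.** -/
theorem s0051_of_core (h : CoreStatement) :
    ∃ C : ℝ, 0 < C ∧ ∃ f : List Bool → List Bool, Crest.Complexity.PolyTime f ∧
      ∀ (n k : ℕ) (mult : Fin n → Fin n → ℕ), 1 ≤ n → 1 ≤ k →
        (∀ i j, mult i j = mult j i) → (∀ i, mult i i = 0) →
        (∀ S : Finset (Fin n), S.Nonempty → S ≠ Finset.univ →
          k ≤ ∑ i ∈ S, ∑ j ∈ Sᶜ, mult i j) →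
        ∀ T : Finset (Fin n × Fin n), T = decodePairs n (f (multigraphCode n k mult)) →
          (∀ p ∈ T, p.1 < p.2 ∧ 1 ≤ mult p.1 p.2) ∧ T.card + 1 = n ∧
          (adjGraph Prod.fst Prod.snd T).Connected ∧
          ∀ S : Finset (Fin n), S.Nonempty → S ≠ Finset.univ →
            ((cutEdges Prod.fst Prod.snd T S).card : ℝ) ≤
              C / k * ((∑ i ∈ S, ∑ j ∈ Sᶜ, mult i j : ℕ) : ℝ) := by
  obtain ⟨C, core, hC, hpt, h⟩ := h
  refine ⟨4 * C, by positivity, thinF core, PT.polyTime (thinF_pt hpt), ?_⟩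
  intro n k mult hn hk hs _ hcut T hT
  rw [thinF_code, thinD] at hT
  set q := k / (2 * (n * n)) + 1 with hq
  set k' := k / (4 * q) + 1 with hk'
  set es := edgesL n q (tabM mult) with hes
  have hL : Loopless n es := loopless_edgesL _ _ _
  obtain ⟨hsub, hH⟩ := h n k' es (Nat.le_add_left _ _) hL (forall_proper.2 fun S h1 h2 => by
    rw [hes, cutL_edgesL q mult hs]; exact red_lower hn hk mult S (hcut S h1 h2))
  set H := core (⟨n⟩, k', es)
  obtain ⟨t1, t2, t3, t4⟩ := treeL_spec hn (hL.sublist hsub) fun S hS => (hH S hS).1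
  have hmem : ∀ p : Fin n × Fin n, p ∈ T ↔ ((p.1 : ℕ), (p.2 : ℕ)) ∈ treeL n H := fun p => by
    rw [hT, mem_decode]
  have hperm : (T.toList.map (numE (Equiv.refl (Fin n)) Prod.fst Prod.snd)).Perm (treeL n H) := by
    refine (List.perm_ext_iff_of_nodup (List.Nodup.map (fun x y e => ?_) T.nodup_toList) t1).2
      fun p => ?_
    · simp only [numE, Equiv.refl_apply, Prod.mk.injEq] at e
      exact Prod.ext (Fin.ext e.1) (Fin.ext e.2)
    · simp only [List.mem_map, Finset.mem_toList, hmem, numE, Equiv.refl_apply]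
      constructor
      · rintro ⟨a, ha, rfl⟩
        exact ha
      · intro hp
        have := hL _ (hsub _ (t3 _ hp))
        exact ⟨(⟨p.1, this.1⟩, ⟨p.2, this.2.1⟩), hp, rfl⟩
  have hcT : ∀ S, (cutEdges Prod.fst Prod.snd T S).card = cutL (treeL n H) (vals S) := fun S => by
    rw [← cutL_numE (Equiv.refl (Fin n)), cutL_perm hperm, numS]
    congr 2
    ext x; simp
  have : Nonempty (Fin n) := ⟨⟨0, hn⟩⟩
  refine ⟨fun p hp => ?_, ?_, connected_of_cuts _ _ T fun S h1 h2 => ?_, fun S h1 h2 => ?_⟩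
  · have := mem_edgesL (hsub _ (t3 _ ((hmem p).1 hp)))
    rw [getD_tabM] at this
    exact ⟨this.1, this.2.2⟩
  · have := hperm.length_eq
    rw [List.length_map, Finset.length_toList] at this
    omega
  · rw [hcT]
    exact forall_proper.1 t4 S h1 h2
  · have a1 : (cutL (treeL n H) (vals S) : ℝ) ≤ cutL H (vals S) := by
      exact_mod_cast cutL_le_of_nodup t1 t3 _
    have a2 := (forall_proper.1 hH S h1 h2).2
    have a3 : (q : ℝ) * cutL es (vals S) ≤ ((∑ i ∈ S, ∑ j ∈ Sᶜ, mult i j : ℕ) : ℝ) := by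
      rw [hes, cutL_edgesL q mult hs]
      exact_mod_cast red_upper q mult S
    have a4 : (k : ℝ) ≤ 4 * q * k' := by
      exact_mod_cast (Nat.lt_mul_div_succ k (show 0 < 4 * q by positivity)).le
    have hk0 : (0 : ℝ) < k := by exact_mod_cast hk
    have hk1 : (0 : ℝ) < k' := by exact_mod_cast (show 0 < k' by positivity)
    have a5 : C / k' ≤ 4 * C / k * q := by
      rw [div_mul_eq_mul_div, div_le_div_iff₀ hk1 hk0]
      nlinarith
    rw [hcT]
    calc (cutL (treeL n H) (vals S) : ℝ) ≤ C / k' * cutL es (vals S) := a1.trans a2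
      _ ≤ 4 * C / k * q * cutL es (vals S) := by gcongr
      _ = 4 * C / k * (q * cutL es (vals S)) := by ring
      _ ≤ _ := by gcongr

end Crest.Agent.X37.IO
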