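import Crest.Agent.X37.IO.Defs

/-!
# Row 37: a spanning tree of a connected edge list, in polynomial time
-/

set_option autoImplicit false

namespace Crest.Agent.X37.IO

open Crest.Agent.Lib.PT Crest.CombinatoricsR.Multigraph

/-- one round: add an edge leaving the set of vertices reached so far -/
def growStep (H : List (ℕ × ℕ)) (c : List ℕ × List (ℕ × ℕ)) : List ℕ × List (ℕ × ℕ) :=
  (H.find? fun e => decide ((e.1 ∈ c.1 ∧ ¬ e.2 ∈ c.1) ∨ (¬ e.1 ∈ c.1 ∧ e.2 ∈ c.1))).elim c
    fun e => ((if e.1 ∈ c.1 then e.2 else e.1) :: c.1, e :: c.2)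

/-- a spanning tree grown from the vertex `0` -/
def treeL (n : ℕ) (H : List (ℕ × ℕ)) : List (ℕ × ℕ) := ((growStep H)^[n - 1] ([0], [])).2

theorem sz_growStep (H : List (ℕ × ℕ)) (c : List ℕ × List (ℕ × ℕ)) :
    sz (growStep H c) ≤ sz c + (2 * sz H + 2) := by
  unfold growStep
  cases h : H.find? _ with
  | none => simp
  | some e =>
    have h1 := sz_le_of_mem (List.mem_of_find?_eq_some h)
    have h2 := sz_prod e
    have h3 := sz_prod c
    simp only [Option.elim, sz_mk, sz_cons]
    split_ifs <;> omega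

theorem growStep_pt : PT fun p : List (ℕ × ℕ) × List ℕ × List (ℕ × ℕ) => growStep p.1 p.2 := by
  unfold growStep
  fun_prop

attribute [irreducible] growStep

@[fun_prop] theorem treeL_pt {α : Type} [Enc α] {n : α → ℕ} {H : α → List (ℕ × ℕ)} (hn : PT n)
    (hb : PB n) (hH : PT H) : PT fun a => treeL (n a) (H a) := by
  unfold treeL
  refine PT.snd (PT.iterate_grow (f := fun a => growStep (H a)) (by fun_prop) (by fun_prop)
    (by fun_prop) (growStep_pt.comp_eq (fun p => (H p.1, p.2)) (by fun_prop))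
    (G := fun a => 2 * sz (H a) + 2) (by fun_prop) fun a c => sz_growStep _ _)

/-- the invariant after `t` rounds -/
structure GrowInv (n : ℕ) (H : List (ℕ × ℕ)) (t : ℕ) (c : List ℕ × List (ℕ × ℕ)) : Prop where
  nodupR : c.1.Nodup
  lenR : c.1.length = t + 1
  ltR : ∀ v ∈ c.1, v < n
  nodupT : c.2.Nodup
  lenT : c.2.length = t
  sub : ∀ e ∈ c.2, e ∈ H
  inside : ∀ e ∈ c.2, e.1 ∈ c.1 ∧ e.2 ∈ c.1
  conn : ∀ S : Finset ℕ, ∀ u ∈ c.1, ∀ v ∈ c.1, u ∈ S → v ∉ S → ∃ e ∈ c.2, crossB S e = true

theorem GrowInv.step {n : ℕ} {H : List (ℕ × ℕ)} (hH : Loopless n H)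
    (hc : ∀ S, Proper n S → 1 ≤ cutL H S) {t : ℕ} (ht : t + 1 < n)
    {c : List ℕ × List (ℕ × ℕ)} (h : GrowInv n H t c) : GrowInv n H (t + 1) (growStep H c) := by
  obtain ⟨R, T⟩ := c
  have hP : Proper n R.toFinset := by
    refine ⟨fun v hv => Finset.mem_range.2 (h.ltR v (List.mem_toFinset.1 hv)), ?_, fun e => ?_⟩
    · rw [← Finset.card_pos, List.toFinset_card_of_nodup h.nodupR, h.lenR]; omega
    · have := congrArg Finset.card e
      rw [List.toFinset_card_of_nodup h.nodupR, h.lenR, Finset.card_range] at this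
      omega
  obtain ⟨e0, he0, hx0⟩ := cutL_pos.1 (hc _ hP)
  unfold growStep
  cases hf : H.find? _ with
  | none =>
    have := List.find?_eq_none.1 hf e0 he0
    simp only [crossB_iff, List.mem_toFinset] at hx0
    simp only [decide_eq_true_eq] at this
    exact absurd hx0 this
  | some e =>
    have he := List.mem_of_find?_eq_some hf
    have hx := List.find?_some hf
    simp only [decide_eq_true_eq] at hx
    obtain ⟨a, b, hab, ha, hb, hn⟩ : ∃ a b : ℕ, (e = (a, b) ∨ e = (b, a)) ∧ a ∈ R ∧ b ∉ R ∧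
        (if e.1 ∈ R then e.2 else e.1) = b := by
      rcases hx with ⟨h1, h2⟩ | ⟨h1, h2⟩
      · exact ⟨e.1, e.2, Or.inl rfl, h1, h2, if_pos h1⟩
      · exact ⟨e.2, e.1, Or.inr rfl, h2, h1, if_neg h1⟩
    simp only [Option.elim, hn]
    have hbn : b < n := by
      rcases hab with rfl | rfl
      · exact (hH _ he).2.1
      · exact (hH _ he).1
    have heT : e ∉ T := fun hT => by
      have := h.inside e hT
      rcases hab with rfl | rfl
      · exact hb this.2
      · exact hb this.1
    have hcross : ∀ S : Finset ℕ, (a ∈ S ↔ b ∉ S) → crossB S e = true := fun S hS => by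
      rw [crossB_iff]
      rcases hab with rfl | rfl <;> tauto
    refine ⟨List.nodup_cons.2 ⟨hb, h.nodupR⟩, by simpa using h.lenR, ?_,
      List.nodup_cons.2 ⟨heT, h.nodupT⟩, by simpa using h.lenT, ?_, ?_, ?_⟩
    · intro v hv
      rcases List.mem_cons.1 hv with rfl | hv
      exacts [hbn, h.ltR v hv]
    · intro f hf
      rcases List.mem_cons.1 hf with rfl | hf
      exacts [he, h.sub f hf]
    · intro f hf
      rcases List.mem_cons.1 hf with rfl | hf
      · rcases hab with rfl | rfl <;> simp [ha]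
      · exact ⟨List.mem_cons_of_mem _ (h.inside f hf).1, List.mem_cons_of_mem _ (h.inside f hf).2⟩
    · intro S u hu v hv huS hvS
      have old : ∀ u ∈ R, ∀ v ∈ R, u ∈ S → v ∉ S → ∃ f ∈ e :: T, crossB S f = true :=
        fun u hu v hv h1 h2 => (h.conn S u hu v hv h1 h2).imp fun f hf =>
          ⟨List.mem_cons_of_mem _ hf.1, hf.2⟩
      by_cases haS : a ∈ S
      · rcases List.mem_cons.1 hv with rfl | hv
        · exact ⟨e, List.mem_cons_self, hcross S (by tauto)⟩
        · exact old a ha v hv haS hvS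
      · rcases List.mem_cons.1 hu with rfl | hu
        · exact ⟨e, List.mem_cons_self, hcross S (by tauto)⟩
        · exact old u hu a ha huS haS

theorem growInv {n : ℕ} {H : List (ℕ × ℕ)} (hH : Loopless n H)
    (hc : ∀ S, Proper n S → 1 ≤ cutL H S) (t : ℕ) (ht : t < n) :
    GrowInv n H t ((growStep H)^[t] ([0], [])) := by
  induction t with
  | zero =>
    refine ⟨by simp, rfl, by simpa using ht, by simp, rfl, by simp, by simp, ?_⟩
    intro S u hu v hv h1 h2
    simp only [Function.iterate_zero, id, List.mem_singleton] at hu hv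
    exact absurd (hu.trans hv.symm ▸ h1) h2
  | succ t ih =>
    rw [Function.iterate_succ_apply']
    exact (ih (by omega)).step hH hc ht

/-- **The tree**: `n - 1` distinct edges of the list that cross every proper set. -/
theorem treeL_spec {n : ℕ} (hn : 1 ≤ n) {H : List (ℕ × ℕ)} (hH : Loopless n H)
    (hc : ∀ S, Proper n S → 1 ≤ cutL H S) :
    (treeL n H).Nodup ∧ (treeL n H).length + 1 = n ∧ (∀ e ∈ treeL n H, e ∈ H) ∧
      ∀ S, Proper n S → 1 ≤ cutL (treeL n H) S := by
  have h := growInv hH hc (n - 1) (by omega)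
  refine ⟨h.nodupT, by rw [treeL, h.lenT]; omega, h.sub, fun S hS => cutL_pos.2 ?_⟩
  have hR : ((growStep H)^[n - 1] ([0], [])).1.toFinset = Finset.range n := by
    refine Finset.eq_of_subset_of_card_le
      (fun v hv => Finset.mem_range.2 (h.ltR v (List.mem_toFinset.1 hv))) ?_
    rw [List.toFinset_card_of_nodup h.nodupR, h.lenR, Finset.card_range]; omega
  obtain ⟨u, hu⟩ := hS.2.1
  obtain ⟨v, hv, hvS⟩ := Finset.exists_of_ssubset (Finset.ssubset_iff_subset_ne.2 ⟨hS.1, hS.2.2⟩)
  exact h.conn S u (List.mem_toFinset.1 (hR ▸ hS.1 hu)) v (List.mem_toFinset.1 (hR ▸ hv)) hu hvS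

/-- a list without repetitions of edges of `H` has smaller cuts -/
theorem cutL_le_of_nodup {T H : List (ℕ × ℕ)} (hT : T.Nodup) (h : ∀ e ∈ T, e ∈ H)
    (S : Finset ℕ) : cutL T S ≤ cutL H S :=
  (List.subperm_of_subset hT h).countP_le _

/-- a graph in which every proper vertex set is crossed is connected -/
theorem connected_of_cuts {V E : Type} [Fintype V] [DecidableEq V] [Nonempty V]
    (src tgt : E → V) (F : Finset E)
    (h : ∀ S : Finset V, S.Nonempty → S ≠ Finset.univ → 1 ≤ (cutEdges src tgt F S).card) :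
    (adjGraph src tgt F).Connected := by
  classical
  refine ⟨fun u v => ?_⟩
  by_contra huv
  obtain ⟨e, he⟩ := Finset.card_pos.1
    (h (Finset.univ.filter fun w => (adjGraph src tgt F).Reachable u w) ⟨u, by simp⟩
      fun hS => huv (by simpa using Finset.eq_univ_iff_forall.1 hS v))
  simp only [cutEdges, Finset.mem_filter, Finset.mem_univ, true_and] at he
  obtain ⟨heF, ⟨h1, h2⟩ | ⟨h1, h2⟩⟩ := he
  · exact h2 (h1.trans (SimpleGraph.Adj.reachable
      ⟨fun e' => h2 (e' ▸ h1), e, heF, Or.inl ⟨rfl, rfl⟩⟩))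
  · exact h1 (h2.trans (SimpleGraph.Adj.reachable
      ⟨fun e' => h1 (e' ▸ h2), e, heF, Or.inr ⟨rfl, rfl⟩⟩))

end Crest.Agent.X37.IO
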